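import Crest.Agent.CompReal.Rat

/-! Computably approximable families of real numbers. -/

set_option autoImplicit false

namespace Crest.Agent.CompReal

open Filter Topology

variable {α β : Type} [Primcodable α] [Primcodable β]

/-- A family of reals indexed by a coded type is computably approximable. -/
def CA (f : α → ℝ) : Prop :=
  ∃ F : α × ℕ → ℚ, Computable F ∧ ∀ a n, |f a - F (a, n)| ≤ 1 / ((n : ℝ) + 1)

namespace CA

lemma of_rat {F : α → ℚ} (hF : Computable F) : CA fun a => (F a : ℝ) :=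
  ⟨fun x => F x.1, hF.comp Computable.fst, fun a n => by
    simp only [sub_self, abs_zero]; positivity⟩

lemma const (q : ℚ) : CA fun _ : α => (q : ℝ) := of_rat (Computable.const q)

lemma comp {f : β → ℝ} (hf : CA f) {g : α → β} (hg : Computable g) : CA fun a => f (g a) := by
  obtain ⟨F, hF, h⟩ := hf
  exact ⟨fun x => F (g x.1, x.2), hF.comp ((hg.comp Computable.fst).pair Computable.snd),
    fun a n => h _ _⟩

lemma congr {f g : α → ℝ} (hf : CA f) (h : ∀ a, f a = g a) : CA g :=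
  (funext h : f = g) ▸ hf

lemma comp_double : Computable fun x : α × ℕ => 2 * x.2 + 1 :=
  Primrec.nat_double_succ.to_comp.comp Computable.snd

lemma half (n : ℕ) : 1 / (((2 * n + 1 : ℕ) : ℝ) + 1) + 1 / (((2 * n + 1 : ℕ) : ℝ) + 1) =
    1 / ((n : ℝ) + 1) := by
  push_cast
  field_simp
  ring

lemma lim {f : α × ℕ → ℝ} (hf : CA f) {g : α → ℝ}
    (h : ∀ a n, |g a - f (a, n)| ≤ 1 / ((n : ℝ) + 1)) : CA g := by
  obtain ⟨F, hF, hF'⟩ := hf
  refine ⟨fun x => F ((x.1, 2 * x.2 + 1), 2 * x.2 + 1),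
    hF.comp ((Computable.fst.pair comp_double).pair comp_double), fun a n => ?_⟩
  rw [← half n]
  exact (abs_sub_le _ _ _).trans (add_le_add (h a _) (hF' _ _))

lemma bound {f : α → ℝ} (hf : CA f) : ∃ b : α → ℕ, Computable b ∧ ∀ a, |f a| ≤ b a := by
  obtain ⟨F, hF, h⟩ := hf
  refine ⟨fun a => (F (a, 0)).num.natAbs + 1, Computable.succ.comp
    (computable_natAbs.comp (hF.comp (Computable.id.pair (Computable.const 0)))), fun a => ?_⟩
  have h1 := h a 0
  have h2 : |(F (a, 0) : ℝ)| ≤ ((F (a, 0)).num.natAbs : ℝ) := by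
    conv_lhs => rw [← Rat.num_div_den (F (a, 0))]
    push_cast
    rw [abs_div, Nat.cast_natAbs, Int.cast_abs, Nat.abs_cast]
    exact div_le_self (abs_nonneg _) (by exact_mod_cast (F (a, 0)).den_pos)
  have h3 := abs_sub_abs_le_abs_sub (f a) (F (a, 0))
  push_cast
  norm_num at h1
  linarith

lemma add {f g : α → ℝ} (hf : CA f) (hg : CA g) : CA fun a => f a + g a := by
  obtain ⟨F, hF, hF'⟩ := hf
  obtain ⟨G, hG, hG'⟩ := hg
  refine ⟨fun x => F (x.1, 2 * x.2 + 1) + G (x.1, 2 * x.2 + 1),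
    rat_add (hF.comp (Computable.fst.pair comp_double))
      (hG.comp (Computable.fst.pair comp_double)), fun a n => ?_⟩
  rw [← half n]
  refine le_trans ?_ (add_le_add (hF' a _) (hG' a _))
  refine le_trans (le_of_eq ?_) (abs_add_le _ _)
  push_cast
  congr 1
  ring

lemma neg {f : α → ℝ} (hf : CA f) : CA fun a => -f a := by
  obtain ⟨F, hF, hF'⟩ := hf
  refine ⟨fun x => -F x, rat_neg hF, fun a n => ?_⟩
  refine le_trans (le_of_eq ?_) (hF' a n)
  rw [← abs_neg]
  push_cast
  congr 1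
  ring

lemma sub {f g : α → ℝ} (hf : CA f) (hg : CA g) : CA fun a => f a - g a :=
  (hf.add hg.neg).congr fun _ => (sub_eq_add_neg _ _).symm

lemma mul {f g : α → ℝ} (hf : CA f) (hg : CA g) : CA fun a => f a * g a := by
  obtain ⟨b, hb, hb'⟩ := hf.bound
  obtain ⟨c, hc, hc'⟩ := hg.bound
  obtain ⟨F, hF, hF'⟩ := hf
  obtain ⟨G, hG, hG'⟩ := hg
  have hN : Computable fun x : α × ℕ => (b x.1 + c x.1 + 1) * (x.2 + 1) :=
    nat_mul (Computable.succ.comp (nat_add (hb.comp Computable.fst) (hc.comp Computable.fst)))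
      (Computable.succ.comp Computable.snd)
  refine ⟨fun x => F (x.1, (b x.1 + c x.1 + 1) * (x.2 + 1)) *
      G (x.1, (b x.1 + c x.1 + 1) * (x.2 + 1)),
    rat_mul (hF.comp (Computable.fst.pair hN)) (hG.comp (Computable.fst.pair hN)), fun a n => ?_⟩
  simp only
  set N := (b a + c a + 1) * (n + 1) with hNdef
  have h1 := hF' a N
  have h2 := hG' a N
  have hb1 := hb' a
  have hc1 := hc' a
  push_cast
  set x : ℝ := (F (a, N) : ℝ)
  set y : ℝ := (G (a, N) : ℝ)
  set e : ℝ := 1 / ((N : ℝ) + 1) with he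
  have he0 : 0 < e := by positivity
  have he1 : e ≤ 1 := by
    rw [he, div_le_one (by positivity)]
    linarith [Nat.cast_nonneg (α := ℝ) N]
  have hy : |y| ≤ c a + 1 := by
    have := abs_sub_abs_le_abs_sub y (g a)
    rw [abs_sub_comm] at this
    linarith
  have key : ((b a : ℝ) + c a + 1) * e ≤ 1 / ((n : ℝ) + 1) := by
    rw [he, mul_one_div, div_le_div_iff₀ (by positivity) (by positivity), hNdef]
    push_cast
    linarith
  calc |f a * g a - x * y| = |f a * (g a - y) + (f a - x) * y| := by congr 1; ring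
    _ ≤ |f a| * |g a - y| + |f a - x| * |y| := by
        rw [← abs_mul, ← abs_mul]; exact abs_add_le _ _
    _ ≤ b a * e + e * (c a + 1) := by gcongr
    _ ≤ _ := by linarith

lemma comp_lip {f : α → ℝ} (hf : CA f) {g : ℝ → ℝ} (hg : CA fun q : ℚ => g q) (L N₀ : ℕ)
    (h : ∀ a y, |y - f a| ≤ 1 / ((N₀ : ℝ) + 1) → |g y - g (f a)| ≤ L * |y - f a|) :
    CA fun a => g (f a) := by
  obtain ⟨F, hF, hF'⟩ := hf
  have hN : Computable fun x : α × ℕ => N₀ + L * (x.2 + 1) :=
    nat_add (Computable.const _) (nat_mul (Computable.const _) (Computable.succ.comp Computable.snd))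
  refine lim (f := fun x : α × ℕ => g (F (x.1, N₀ + L * (x.2 + 1))))
    (hg.comp (hF.comp (Computable.fst.pair hN))) fun a n => ?_
  have h1 := hF' a (N₀ + L * (n + 1))
  rw [abs_sub_comm] at h1 ⊢
  refine (h a _ (h1.trans ?_)).trans ((mul_le_mul_of_nonneg_left h1 (Nat.cast_nonneg _)).trans ?_)
  · gcongr
    omega
  · rw [mul_one_div, div_le_div_iff₀ (by positivity) (by positivity)]
    push_cast
    linarith [Nat.cast_nonneg (α := ℝ) N₀]

lemma list_sum {f : α × β → ℝ} (hf : CA f) {L : α → List β} (hL : Computable L) :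
    CA fun a => ((L a).map fun b => f (a, b)).sum := by
  obtain ⟨F, hF, hF'⟩ := hf
  have hN : Computable fun x : α × ℕ => (L x.1).length * (x.2 + 1) :=
    nat_mul (Computable.list_length.comp (hL.comp Computable.fst))
      (Computable.succ.comp Computable.snd)
  have hh : Computable₂ fun (x : α × ℕ) (y : β × ℚ) =>
      F ((x.1, y.1), (L x.1).length * (x.2 + 1)) + y.2 :=
    (rat_add (hF.comp (((Computable.fst.comp Computable.fst).pair
      (Computable.fst.comp Computable.snd)).pair (hN.comp Computable.fst)))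
      (Computable.snd.comp Computable.snd)).to₂
  refine ⟨_, list_foldr (hL.comp Computable.fst) (Computable.const 0) hh, fun a n => ?_⟩
  simp only
  set N := (L a).length * (n + 1) with hNdef
  have : ∀ l : List β, |(l.map fun b => f (a, b)).sum -
      (l.foldr (fun b s => F ((a, b), N) + s) 0 : ℚ)| ≤ l.length * (1 / ((N : ℝ) + 1)) := by
    intro l
    induction l with
    | nil => simp
    | cons b l ih =>
      simp only [List.map_cons, List.sum_cons, List.foldr_cons, List.length_cons]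
      push_cast
      have h1 := hF' (a, b) N
      refine le_trans (le_of_eq ?_) ((abs_add_le _ _).trans ((add_le_add h1 ih).trans (le_of_eq ?_)))
      · congr 1; ring
      · ring
  refine (this _).trans ?_
  rw [mul_one_div, div_le_div_iff₀ (by positivity) (by positivity), hNdef]
  push_cast
  linarith

lemma ite {p : α → Prop} [DecidablePred p] (hp : ComputablePred p) {f g : α → ℝ} (hf : CA f)
    (hg : CA g) : CA fun a => if p a then f a else g a := by
  obtain ⟨F, hF, hF'⟩ := hf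
  obtain ⟨G, hG, hG'⟩ := hg
  refine ⟨fun x => if p x.1 then F x else G x, comp_ite (pred_comp hp Computable.fst) hF hG,
    fun a n => ?_⟩
  simp only
  split_ifs
  · exact hF' a n
  · exact hG' a n

/-- The lower approximation `(1 + q / k) ^ k` of `exp q`. -/
def lo (q : ℚ) (k : ℕ) : ℚ := (1 + q / k) ^ k

lemma lo_cast (q : ℚ) (k : ℕ) : (lo q k : ℝ) = (1 + (q : ℝ) / k) ^ k := by simp [lo]

lemma computable_lo {f : α → ℚ} {n : α → ℕ} (hf : Computable f) (hn : Computable n) :
    Computable fun x => lo (f x) (n x) :=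
  rat_pow (rat_add (Computable.const 1) (rat_div hf (rat_natCast hn))) hn

attribute [irreducible] lo

lemma lo_le (q : ℚ) (k : ℕ) (hk : |q| < k) :
    0 < (lo q k : ℝ) ∧ (lo q k : ℝ) ≤ Real.exp q := by
  have hk' : |(q : ℝ)| < k := by exact_mod_cast hk
  have hk0 : (0 : ℝ) < k := (abs_nonneg _).trans_lt hk'
  have h1 : 0 < 1 + (q : ℝ) / k := by
    have := (abs_lt.mp hk').1
    have : -1 < (q : ℝ) / k := by rw [lt_div_iff₀ hk0]; linarith
    linarith
  rw [lo_cast]
  refine ⟨pow_pos h1 _, ?_⟩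
  calc (1 + (q : ℝ) / k) ^ k ≤ Real.exp (q / k) ^ k := by
        gcongr; linarith [Real.add_one_le_exp ((q : ℝ) / k)]
    _ = _ := by rw [← Real.exp_nat_mul]; congr 1; field_simp

lemma lo_ex (x : ℚ × ℕ) :
    ∃ k : ℕ, |x.1| < k ∧ (lo (-x.1) k)⁻¹ - lo x.1 k ≤ ((x.2 : ℚ) + 1)⁻¹ := by
  have hlim : ∀ q : ℚ, Tendsto (fun k : ℕ => (lo q k : ℝ)) atTop (𝓝 (Real.exp q)) := fun q =>
    (Real.tendsto_one_add_div_pow_exp (q : ℝ)).congr fun k => (lo_cast q k).symm
  have h1 := ((hlim (-x.1)).inv₀ (Real.exp_pos _).ne').sub (hlim x.1)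
  rw [Rat.cast_neg, Real.exp_neg, inv_inv, sub_self] at h1
  have h2 := h1.eventually (ge_mem_nhds (show (0 : ℝ) < ((x.2 : ℝ) + 1)⁻¹ by positivity))
  have h3 := (tendsto_natCast_atTop_atTop (R := ℚ)).eventually (eventually_gt_atTop |x.1|)
  obtain ⟨k, hk1, hk2⟩ := (h3.and h2).exists
  refine ⟨k, hk1, ?_⟩
  rw [← Rat.cast_le (K := ℝ)]
  push_cast
  exact hk2

lemma exp_rat : CA fun q : ℚ => Real.exp q := by
  have h11 : Computable fun y : (ℚ × ℕ) × ℕ => y.1.1 := Computable.fst.comp Computable.fst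
  have h12 : Computable fun y : (ℚ × ℕ) × ℕ => y.1.2 := Computable.snd.comp Computable.fst
  have hP : ComputablePred fun y : (ℚ × ℕ) × ℕ =>
      |y.1.1| < y.2 ∧ (lo (-y.1.1) y.2)⁻¹ - lo y.1.1 y.2 ≤ ((y.1.2 : ℚ) + 1)⁻¹ :=
    pred_and (rat_lt (rat_abs h11) (rat_natCast Computable.snd))
      (rat_le (rat_sub (rat_inv (computable_lo (rat_neg h11) Computable.snd))
        (computable_lo h11 Computable.snd))
        (rat_inv (rat_add (rat_natCast h12) (Computable.const 1))))
  have hfind := Computable.find (P := fun (x : ℚ × ℕ) (k : ℕ) =>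
    |x.1| < k ∧ (lo (-x.1) k)⁻¹ - lo x.1 k ≤ ((x.2 : ℚ) + 1)⁻¹) hP lo_ex
  refine ⟨_, computable_lo Computable.fst hfind, fun q n => ?_⟩
  obtain ⟨h1, h2⟩ := Nat.find_spec (lo_ex (q, n))
  simp only at h1 h2 ⊢
  generalize Nat.find (lo_ex (q, n)) = k at h1 h2 ⊢
  obtain ⟨_, h4⟩ := lo_le q k h1
  obtain ⟨h5, h6⟩ := lo_le (-q) k (by rwa [abs_neg])
  have h7 : Real.exp q ≤ (lo (-q) k : ℝ)⁻¹ := by
    rw [le_inv_comm₀ (Real.exp_pos _) h5, ← Real.exp_neg]
    exact_mod_cast h6
  rw [← Rat.cast_le (K := ℝ)] at h2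
  push_cast at h2
  rw [abs_of_nonneg (by linarith), one_div]
  linarith

lemma inv {f : α → ℝ} (hf : CA f) {δ : ℝ} (hδ : 0 < δ) (h : ∀ a, δ ≤ f a) :
    CA fun a => (f a)⁻¹ := by
  obtain ⟨N₀, hN₀⟩ := exists_nat_one_div_lt (half_pos hδ)
  obtain ⟨L, hL⟩ := exists_nat_ge (2 / δ ^ 2)
  refine hf.comp_lip (g := fun y => y⁻¹)
    ((of_rat (rat_inv Computable.id)).congr fun q => by simp) L N₀ fun a y hy => ?_
  have h1 := h a
  have h2 : δ / 2 ≤ y := by
    have := (abs_le.mp hy).1
    linarith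
  have hy0 : 0 < y := by linarith
  have hf0 : 0 < f a := by linarith
  have : y⁻¹ - (f a)⁻¹ = -((y - f a) * (y * f a)⁻¹) := by field_simp; ring
  rw [this, abs_neg, abs_mul, mul_comm]
  gcongr
  rw [abs_of_pos (by positivity)]
  refine le_trans ?_ hL
  rw [inv_eq_one_div, div_le_div_iff₀ (by positivity) (by positivity)]
  nlinarith [mul_le_mul h2 h1 hδ.le hy0.le]

end CA

end Crest.Agent.CompReal
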