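import Mathlib

/-! Computability of rational arithmetic for the `Primcodable ℚ` instance coming from
`Denumerable ℚ`. -/

set_option autoImplicit false

namespace Crest.Agent.CompReal

open Encodable Denumerable

/-- The code of a rational number under the plain `Encodable` instance. -/
def raw (q : ℚ) : ℕ := @encode ℚ Rat.instEncodable q

lemma raw_eq (q : ℚ) : raw q = Nat.pair (Equiv.intEquivNat q.num) q.den := rfl

lemma raw_injective : Function.Injective raw := @encode_injective ℚ Rat.instEncodable

lemma intCode_nat (n : ℕ) : Equiv.intEquivNat (n : ℤ) = 2 * n := by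
  have : Equiv.intEquivNat (n : ℤ) = Equiv.natSumNatEquivNat (Sum.inl n) := rfl
  rw [this, Equiv.natSumNatEquivNat_apply]; rfl

lemma intCode_negSucc (n : ℕ) : Equiv.intEquivNat (Int.negSucc n) = 2 * n + 1 := by
  have : Equiv.intEquivNat (Int.negSucc n) = Equiv.natSumNatEquivNat (Sum.inr n) := rfl
  rw [this, Equiv.natSumNatEquivNat_apply]; rfl

lemma natAbs_eq_code (z : ℤ) : z.natAbs = (Equiv.intEquivNat z + 1) / 2 := by
  cases z with
  | ofNat n => rw [Int.ofNat_eq_natCast, intCode_nat]; omega
  | negSucc n => rw [intCode_negSucc]; simp; omega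

lemma toNat_eq_code (z : ℤ) :
    z.toNat = if Equiv.intEquivNat z % 2 = 0 then Equiv.intEquivNat z / 2 else 0 := by
  cases z with
  | ofNat n => rw [Int.ofNat_eq_natCast, intCode_nat]; simp
  | negSucc n => rw [intCode_negSucc]; simp

/-- Valid codes. -/
def Valid (c : ℕ) : Prop :=
  0 < c.unpair.2 ∧ ∀ x < c.unpair.2 + 1,
    ¬((c.unpair.1 + 1) / 2 % x = 0 ∧ c.unpair.2 % x = 0) ∨ x = 1

instance : DecidablePred Valid := fun c => by unfold Valid; infer_instance

lemma coprime_iff {a d : ℕ} (hd : 0 < d) :
    a.Coprime d ↔ ∀ x < d + 1, ¬(a % x = 0 ∧ d % x = 0) ∨ x = 1 := by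
  constructor
  · intro h x _
    by_cases hx : a % x = 0 ∧ d % x = 0
    · exact Or.inr (Nat.eq_one_of_dvd_coprimes h (Nat.dvd_of_mod_eq_zero hx.1)
        (Nat.dvd_of_mod_eq_zero hx.2))
    · exact Or.inl hx
  · intro h
    rcases h (a.gcd d) (Nat.lt_succ_of_le (Nat.gcd_le_right a hd)) with h1 | h1
    · exact absurd ⟨Nat.mod_eq_zero_of_dvd (Nat.gcd_dvd_left a d),
        Nat.mod_eq_zero_of_dvd (Nat.gcd_dvd_right a d)⟩ h1
    · exact h1

lemma valid_iff (c : ℕ) : Valid c ↔ c ∈ Set.range raw := by
  constructor
  · rintro ⟨h1, h2⟩
    rw [← coprime_iff h1] at h2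
    refine ⟨⟨Equiv.intEquivNat.symm c.unpair.1, c.unpair.2, h1.ne', ?_⟩, ?_⟩
    · rw [natAbs_eq_code, Equiv.apply_symm_apply]; exact h2
    · rw [raw_eq]; simp
  · rintro ⟨q, rfl⟩
    have := q.reduced
    rw [natAbs_eq_code] at this
    refine ⟨by simp [raw_eq, q.den_pos], ?_⟩
    simp only [raw_eq, Nat.unpair_pair]
    exact (coprime_iff q.den_pos).mp this

lemma primrec_valid : PrimrecPred Valid := by
  have h1 : Primrec fun c : ℕ => c.unpair.1 := Primrec.fst.comp Primrec.unpair
  have h2 : Primrec fun c : ℕ => c.unpair.2 := Primrec.snd.comp Primrec.unpair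
  have hR : PrimrecRel fun (x c : ℕ) =>
      ¬((c.unpair.1 + 1) / 2 % x = 0 ∧ c.unpair.2 % x = 0) ∨ x = 1 := by
    refine PrimrecPred.or (PrimrecPred.not (PrimrecPred.and ?_ ?_)) ?_
    · exact Primrec.eq.comp (Primrec.nat_mod.comp (Primrec.nat_div.comp
        (Primrec.succ.comp (h1.comp Primrec.snd)) (Primrec.const 2)) Primrec.fst) (Primrec.const 0)
    · exact Primrec.eq.comp (Primrec.nat_mod.comp (h2.comp Primrec.snd) Primrec.fst)
        (Primrec.const 0)
    · exact Primrec.eq.comp Primrec.fst (Primrec.const 1)
  exact PrimrecPred.and (Primrec.nat_lt.comp (Primrec.const 0) h2)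
    (hR.forall_lt.comp (Primrec.succ.comp h2) Primrec.id)

/-- The number of valid codes below `c`. -/
def cnt (c : ℕ) : ℕ := ((List.range c).filter fun x => Valid x).length

lemma primrec_cnt : Primrec cnt :=
  Primrec.list_length.comp ((Primrec.listFilter primrec_valid).comp Primrec.list_range)

lemma encode_eq_cnt (q : ℚ) : @encode ℚ (Primcodable.toEncodable) q = cnt (raw q) := by
  have : @encode ℚ (Primcodable.toEncodable) q = (List.range (raw q)).countP
    (fun x => @decide (x ∈ Set.range raw) (@decidableRangeEncode ℚ Rat.instEncodable x)) := rfl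
  rw [this, cnt, List.countP_eq_length_filter]
  congr 2
  ext x
  simp [valid_iff]

lemma computable_raw : Computable raw := by
  have hex : ∀ q : ℚ, ∃ c, Valid c ∧ cnt c = @encode ℚ (Primcodable.toEncodable) q :=
    fun q => ⟨raw q, (valid_iff _).mpr ⟨q, rfl⟩, (encode_eq_cnt q).symm⟩
  have hP : PrimrecPred fun p : ℚ × ℕ =>
      Valid p.2 ∧ cnt p.2 = @encode ℚ (Primcodable.toEncodable) p.1 :=
    (primrec_valid.comp Primrec.snd).and
      (Primrec.eq.comp (primrec_cnt.comp Primrec.snd) (Primrec.encode.comp Primrec.fst))
  refine (Computable.find (P := fun (q : ℚ) c =>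
    Valid c ∧ cnt c = @encode ℚ (Primcodable.toEncodable) q) hP.computablePred hex).of_eq
    fun q => ?_
  obtain ⟨h1, h2⟩ := Nat.find_spec (hex q)
  obtain ⟨r, hr⟩ := (valid_iff _).mp h1
  rw [← hr, ← encode_eq_cnt] at h2
  rw [← hr, @encode_injective ℚ Primcodable.toEncodable _ _ h2]

variable {α β σ : Type} [Primcodable α] [Primcodable β] [Primcodable σ]

lemma computable_den : Computable fun q : ℚ => q.den :=
  (Computable.snd.comp (Computable.unpair.comp computable_raw)).of_eq fun q => by simp [raw_eq]

lemma computable_code : Computable fun q : ℚ => Equiv.intEquivNat q.num :=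
  (Computable.fst.comp (Computable.unpair.comp computable_raw)).of_eq fun q => by simp [raw_eq]

lemma computable_natAbs : Computable fun q : ℚ => q.num.natAbs :=
  (Primrec.nat_div.to_comp.comp (Computable.succ.comp computable_code)
    (Computable.const 2)).of_eq fun _ => (natAbs_eq_code _).symm

/-- Positive part of the numerator. -/
def np (q : ℚ) : ℕ := q.num.toNat

/-- Negative part of the numerator. -/
def nn (q : ℚ) : ℕ := (-q.num).toNat

lemma computable_np : Computable np := by
  have : Primrec fun e : ℕ => if e % 2 = 0 then e / 2 else 0 :=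
    Primrec.ite (Primrec.eq.comp (Primrec.nat_mod.comp Primrec.id (Primrec.const 2))
      (Primrec.const 0)) (Primrec.nat_div.comp Primrec.id (Primrec.const 2)) (Primrec.const 0)
  exact (this.to_comp.comp computable_code).of_eq fun q => (toNat_eq_code _).symm

lemma computable_nn : Computable nn :=
  (Primrec.nat_sub.to_comp.comp computable_natAbs computable_np).of_eq fun q => by
    unfold nn np; omega

lemma num_eq (q : ℚ) : (q.num : ℚ) = (np q : ℚ) - nn q := by
  have : q.num = (np q : ℤ) - nn q := by unfold np nn; omega
  rw [this]; push_cast; rfl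

lemma rat_eq (q : ℚ) : q = ((np q : ℚ) - nn q) / q.den := by
  rw [← num_eq, Rat.num_div_den]

lemma nat_add {f g : α → ℕ} (hf : Computable f) (hg : Computable g) :
    Computable fun a => f a + g a := Primrec.nat_add.to_comp.comp hf hg

lemma nat_mul {f g : α → ℕ} (hf : Computable f) (hg : Computable g) :
    Computable fun a => f a * g a := Primrec.nat_mul.to_comp.comp hf hg

lemma pred_comp {p : β → Prop} {f : α → β} (hp : ComputablePred p) (hf : Computable f) :
    ComputablePred fun a => p (f a) := by
  obtain ⟨_, hp⟩ := hp
  exact (hp.comp hf).computablePred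

lemma pred_eq {f g : α → β} (hf : Computable f) (hg : Computable g) :
    ComputablePred fun a => f a = g a :=
  pred_comp (p := fun x : β × β => x.1 = x.2) (PrimrecPred.computablePred Primrec.eq) (hf.pair hg)

lemma pred_and {p q : α → Prop} (hp : ComputablePred p) (hq : ComputablePred q) :
    ComputablePred fun a => p a ∧ q a := by
  obtain ⟨_, hp⟩ := hp
  obtain ⟨_, hq⟩ := hq
  exact Computable.computablePred ((Primrec.and.to_comp.comp hp hq).of_eq fun a => by simp)

lemma comp_ite {p : α → Prop} [DecidablePred p] {f g : α → β} (hp : ComputablePred p)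
    (hf : Computable f) (hg : Computable g) : Computable fun a => if p a then f a else g a := by
  simpa [Bool.cond_decide] using hp.decide.cond hf hg

/-- The enumeration of the rationals. -/
def oq (k : ℕ) : ℚ := ofNat ℚ k

lemma oq_surj (q : ℚ) : ∃ k, oq k = q := ⟨_, ofNat_encode q⟩

lemma computable_oq : Computable oq := Computable.ofNat ℚ

attribute [irreducible] oq

/-- Building a rational number from natural numbers. -/
lemma rat_mk {p m d : α → ℕ} (hp : Computable p) (hm : Computable m) (hd : Computable d) :
    Computable fun a => ((p a : ℚ) - m a) / d a := by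
  have key : ∀ (p m d : ℕ) (q : ℚ), 0 < d →
      (np q * d + m * q.den = nn q * d + p * q.den ↔ q = ((p : ℚ) - m) / d) := by
    intro p m d q hd
    have h1 : (d : ℚ) ≠ 0 := by positivity
    have h2 : (q.den : ℚ) ≠ 0 := by positivity
    conv_rhs => rw [rat_eq q]
    rw [div_eq_div_iff h2 h1, ← Nat.cast_inj (R := ℚ)]
    push_cast
    constructor <;> intro h <;> linarith
  have hex : ∀ a : α, ∃ k, np (oq k) * (d a - 1 + 1) + m a * (oq k).den =
      nn (oq k) * (d a - 1 + 1) + p a * (oq k).den := by
    intro a
    obtain ⟨k, hk⟩ := oq_surj (((p a : ℚ) - m a) / ((d a - 1 + 1 : ℕ) : ℚ))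
    exact ⟨k, (key _ _ _ _ (Nat.succ_pos _)).mpr hk⟩
  have ho : Computable fun x : α × ℕ => oq x.2 := computable_oq.comp Computable.snd
  have hd' : Computable fun x : α × ℕ => d x.1 - 1 + 1 :=
    Computable.succ.comp (Computable.pred.comp (hd.comp Computable.fst))
  have hf := Computable.find (P := fun a k =>
    np (oq k) * (d a - 1 + 1) + m a * (oq k).den =
      nn (oq k) * (d a - 1 + 1) + p a * (oq k).den)
    (pred_eq (nat_add (nat_mul (computable_np.comp ho) hd')
      (nat_mul (hm.comp Computable.fst) (computable_den.comp ho)))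
      (nat_add (nat_mul (computable_nn.comp ho) hd')
      (nat_mul (hp.comp Computable.fst) (computable_den.comp ho)))) hex
  refine (comp_ite (pred_eq hd (Computable.const 0)) (Computable.const (0 : ℚ))
    (computable_oq.comp hf)).of_eq fun a => ?_
  split_ifs with h
  · simp [h]
  · have := (key _ _ _ _ (Nat.succ_pos _)).mp (Nat.find_spec (hex a))
    rw [this]
    congr 2
    omega

lemma rat_natCast {f : α → ℕ} (hf : Computable f) : Computable fun a => (f a : ℚ) :=
  (rat_mk hf (Computable.const 0) (Computable.const 1)).of_eq fun a => by simp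

lemma rat_neg {f : α → ℚ} (hf : Computable f) : Computable fun a => -f a :=
  (rat_mk (computable_nn.comp hf) (computable_np.comp hf) (computable_den.comp hf)).of_eq
    fun a => by
      conv_rhs => rw [rat_eq (f a)]
      ring

lemma rat_abs {f : α → ℚ} (hf : Computable f) : Computable fun a => |f a| :=
  (rat_mk (computable_natAbs.comp hf) (Computable.const 0) (computable_den.comp hf)).of_eq
    fun a => by
      conv_rhs => rw [← Rat.num_div_den (f a), abs_div]
      simp

lemma rat_add {f g : α → ℚ} (hf : Computable f) (hg : Computable g) :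
    Computable fun a => f a + g a :=
  (rat_mk (nat_add (nat_mul (computable_np.comp hf) (computable_den.comp hg))
      (nat_mul (computable_np.comp hg) (computable_den.comp hf)))
    (nat_add (nat_mul (computable_nn.comp hf) (computable_den.comp hg))
      (nat_mul (computable_nn.comp hg) (computable_den.comp hf)))
    (nat_mul (computable_den.comp hf) (computable_den.comp hg))).of_eq fun a => by
      conv_rhs => rw [rat_eq (f a), rat_eq (g a)]
      have h1 : ((f a).den : ℚ) ≠ 0 := by positivity
      have h2 : ((g a).den : ℚ) ≠ 0 := by positivity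
      push_cast
      field_simp
      ring

lemma rat_mul {f g : α → ℚ} (hf : Computable f) (hg : Computable g) :
    Computable fun a => f a * g a :=
  (rat_mk (nat_add (nat_mul (computable_np.comp hf) (computable_np.comp hg))
      (nat_mul (computable_nn.comp hf) (computable_nn.comp hg)))
    (nat_add (nat_mul (computable_np.comp hf) (computable_nn.comp hg))
      (nat_mul (computable_nn.comp hf) (computable_np.comp hg)))
    (nat_mul (computable_den.comp hf) (computable_den.comp hg))).of_eq fun a => by
      conv_rhs => rw [rat_eq (f a), rat_eq (g a)]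
      push_cast
      ring

lemma rat_inv {f : α → ℚ} (hf : Computable f) : Computable fun a => (f a)⁻¹ :=
  (rat_mk (nat_mul (computable_den.comp hf) (computable_np.comp hf))
    (nat_mul (computable_den.comp hf) (computable_nn.comp hf))
    (nat_mul (computable_natAbs.comp hf) (computable_natAbs.comp hf))).of_eq fun a => by
      conv_rhs => rw [← Rat.num_div_den (f a), inv_div]
      push_cast
      rw [← mul_sub, ← num_eq, Nat.cast_natAbs, Int.cast_abs, abs_mul_abs_self]
      by_cases h : ((f a).num : ℚ) = 0
      · simp [h]
      · field_simp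

lemma rat_sub {f g : α → ℚ} (hf : Computable f) (hg : Computable g) :
    Computable fun a => f a - g a :=
  (rat_add hf (rat_neg hg)).of_eq fun _ => (sub_eq_add_neg _ _).symm

lemma rat_div {f g : α → ℚ} (hf : Computable f) (hg : Computable g) :
    Computable fun a => f a / g a :=
  (rat_mul hf (rat_inv hg)).of_eq fun _ => (div_eq_mul_inv _ _).symm

lemma rat_le {f g : α → ℚ} (hf : Computable f) (hg : Computable g) :
    ComputablePred fun a => f a ≤ g a :=
  (pred_eq (computable_nn.comp (rat_sub hg hf)) (Computable.const 0)).of_eq fun a => by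
    rw [← sub_nonneg (a := g a), ← Rat.num_nonneg]
    unfold nn
    omega

lemma rat_lt {f g : α → ℚ} (hf : Computable f) (hg : Computable g) :
    ComputablePred fun a => f a < g a :=
  (rat_le hg hf).not.of_eq fun _ => not_le

lemma rat_pow {f : α → ℚ} {n : α → ℕ} (hf : Computable f) (hn : Computable n) :
    Computable fun a => f a ^ n a := by
  refine (Computable.nat_rec (g := fun _ => (1 : ℚ)) (h := fun a (x : ℕ × ℚ) => x.2 * f a) hn
    (Computable.const 1) (rat_mul (Computable.snd.comp Computable.snd)
      (hf.comp Computable.fst)).to₂).of_eq fun a => ?_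
  induction n a with
  | zero => simp
  | succ k ih => simp only [pow_succ, ← ih]

lemma nat_pow {f n : α → ℕ} (hf : Computable f) (hn : Computable n) :
    Computable fun a => f a ^ n a :=
  (Primrec₂.unpaired'.mp Nat.Primrec.pow).to_comp.comp hf hn

lemma nat_factorial : Computable Nat.factorial := by
  refine (Computable.nat_rec (f := id) (g := fun _ => (1 : ℕ))
    (h := fun _ (x : ℕ × ℕ) => (x.1 + 1) * x.2) Computable.id
    (Computable.const 1) (nat_mul (Computable.succ.comp (Computable.fst.comp Computable.snd))
      (Computable.snd.comp Computable.snd)).to₂).of_eq fun n => ?_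
  induction n with
  | zero => simp
  | succ k ih => simp only [Nat.factorial_succ, ← ih, id]

/-- Folding a computable function over a list. -/
lemma list_foldl {f : α → List β} {g : α → σ} {h : α → σ × β → σ} (hf : Computable f)
    (hg : Computable g) (hh : Computable₂ h) :
    Computable fun a => (f a).foldl (fun s b => h a (s, b)) (g a) := by
  have hstep : Computable₂ fun a (x : ℕ × σ) =>
      (Option.casesOn (f a)[x.1]? x.2 fun b => h a (x.2, b) : σ) :=
    (Computable.option_casesOn
      (Computable.list_getElem?.comp (hf.comp Computable.fst) (Computable.fst.comp Computable.snd))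
      (Computable.snd.comp Computable.snd)
      (hh.comp (Computable.fst.comp Computable.fst)
        ((Computable.snd.comp (Computable.snd.comp Computable.fst)).pair Computable.snd)).to₂).to₂
  refine (Computable.nat_rec (Computable.list_length.comp hf) hg hstep).of_eq fun a => ?_
  have : ∀ n, n ≤ (f a).length → (Nat.rec (g a) (fun y IH =>
      (Option.casesOn (f a)[y]? IH fun b => h a (IH, b) : σ)) n : σ) =
      ((f a).take n).foldl (fun s b => h a (s, b)) (g a) := by
    intro n
    induction n with
    | zero => simp
    | succ k ih =>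
      intro hk
      have hk' : k < (f a).length := hk
      simp only [ih hk'.le, List.getElem?_eq_getElem hk', List.take_succ_eq_append_getElem hk',
        List.foldl_append, List.foldl_cons, List.foldl_nil]
  rw [this _ le_rfl, List.take_length]

lemma list_foldr {f : α → List β} {g : α → σ} {h : α → β × σ → σ} (hf : Computable f)
    (hg : Computable g) (hh : Computable₂ h) :
    Computable fun a => (f a).foldr (fun b s => h a (b, s)) (g a) :=
  (list_foldl (h := fun a x => h a (x.2, x.1)) (Computable.list_reverse.comp hf) hg
    (hh.comp Computable.fst ((Computable.snd.comp Computable.snd).pair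
      (Computable.fst.comp Computable.snd))).to₂).of_eq fun a => by
    simp [List.foldl_reverse]

end Crest.Agent.CompReal
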